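import Vale.Agent.P054.Count

/-!
# P054: distinct distances of dense subsets of arbitrary lattice boxes

For `d ≥ 3`, a set of `≥ δ t^d` points inside an injective affine image of `{1..t}^d`
determines `≫ δ^2 t^2 ≥ δ^2 n^(2/d)` distinct distances, uniformly in the lattice.
-/

namespace Vale.Agent.Results.P054.LatticeBoxes

open Finset Vale.Agent.P054

open scoped RealInnerProductSpace

theorem card_le_quad {D : ℕ} (P : Finset (EuclideanSpace ℝ (Fin D))) (hn : 2 ≤ P.card) :
    ((P.card : ℝ) * P.card) ^ 2 ≤ 2 * ((P.offDiag.image fun q => dist q.1 q.2).card : ℝ)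
      * ((((P ×ˢ P) ×ˢ (P ×ˢ P)).filter
          fun w => dist w.1.1 w.1.2 = dist w.2.1 w.2.2).card : ℝ) := by
  classical
  set Q := (((P ×ˢ P) ×ˢ (P ×ˢ P)).filter
    fun w => dist w.1.1 w.1.2 = dist w.2.1 w.2.2) with hQ
  set V := (P ×ˢ P).image fun q => dist q.1 q.2 with hV
  set fib : ℝ → ℕ := fun x => ((P ×ˢ P).filter fun q => dist q.1 q.2 = x).card with hfib
  have hsum : ∑ x ∈ V, fib x = (P ×ˢ P).card :=
    (card_eq_sum_card_image _ _).symm
  have hsq : ∑ x ∈ V, fib x ^ 2 = Q.card := by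
    have hm : ∀ q ∈ P ×ˢ P, dist q.1 q.2 ∈ V := fun q hq => mem_image_of_mem _ hq
    have e : Q.card = ∑ q ∈ P ×ˢ P, fib (dist q.1 q.2) := by
      simp only [hQ, hfib, card_filter]
      rw [sum_product]
      exact sum_congr rfl fun a _ => sum_congr rfl fun b _ => if_congr eq_comm rfl rfl
    rw [e, ← sum_fiberwise_of_maps_to hm]
    refine sum_congr rfl fun x _ => ?_
    rw [sum_congr rfl fun q hq => by rw [(mem_filter.1 hq).2], sum_const, smul_eq_mul, sq]
  have hCS := sq_sum_le_card_mul_sum_sq (s := V) (f := fun x => (fib x : ℝ))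
  set Δ := P.offDiag.image fun q => dist q.1 q.2 with hΔ
  have hVle : V.card ≤ Δ.card + 1 := by
    refine (card_le_card ?_).trans (card_insert_le 0 Δ)
    intro x hx
    obtain ⟨q, hq, rfl⟩ := mem_image.1 hx
    rw [mem_product] at hq
    by_cases h : q.1 = q.2
    · simp [h]
    · exact mem_insert_of_mem (mem_image.2 ⟨q, mem_offDiag.2 ⟨hq.1, hq.2, h⟩, rfl⟩)
  have hΔ1 : 1 ≤ Δ.card := by
    obtain ⟨p, hp, q, hq, hpq⟩ := one_lt_card.1 (by omega : 1 < P.card)
    exact card_pos.2 ⟨_, mem_image.2 ⟨(p, q), mem_offDiag.2 ⟨hp, hq, hpq⟩, rfl⟩⟩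
  have hsumR : ∑ x ∈ V, (fib x : ℝ) = (P.card : ℝ) * P.card := by
    rw [← Nat.cast_sum, hsum, card_product, Nat.cast_mul]
  have hsqR : ∑ x ∈ V, (fib x : ℝ) ^ 2 = (Q.card : ℝ) := by
    rw [← hsq]; push_cast; rfl
  rw [hsumR, hsqR] at hCS
  refine hCS.trans (mul_le_mul_of_nonneg_right ?_ (Nat.cast_nonneg _))
  exact_mod_cast (by omega : V.card ≤ 2 * Δ.card)

theorem quad_le {d D t : ℕ} (hd : 3 ≤ d) (ht : 1 ≤ t)
    (L : (Fin d → ℝ) →ₗ[ℝ] EuclideanSpace ℝ (Fin D)) (hL : Function.Injective L)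
    (v : EuclideanSpace ℝ (Fin D)) (P : Finset (EuclideanSpace ℝ (Fin D)))
    (z : EuclideanSpace ℝ (Fin D) → Fin d → ℕ)
    (hzr : ∀ p ∈ P, ∀ i, 1 ≤ z p i ∧ z p i ≤ t)
    (hz : ∀ p ∈ P, p = v + L (fun i => (z p i : ℝ))) :
    ((((P ×ˢ P) ×ˢ (P ×ˢ P)).filter
        fun w => dist w.1.1 w.1.2 = dist w.2.1 w.2.2).card : ℝ)
      ≤ (P.card : ℝ) * P.card * (countConst d * ((2 * t : ℕ) : ℝ) ^ (2 * d - 2)) := by
  classical
  let φ : EuclideanSpace ℝ (Fin D) → (Fin d → ℤ) := fun p i => (z p i : ℤ)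
  let Λ : (Fin d → ℤ) → EuclideanSpace ℝ (Fin D) := fun a => L (fun i => (a i : ℝ))
  have hφinj : Set.InjOn φ ↑P := by
    intro p hp q hq h
    rw [hz p hp, hz q hq]
    congr 2
    funext i
    have := congrFun h i
    simp only [φ] at this
    exact_mod_cast this
  have hdiff : ∀ p ∈ P, ∀ q ∈ P, dist p q = ‖Λ (φ p - φ q)‖ := by
    intro p hp q hq
    rw [dist_eq_norm]
    conv_lhs => rw [hz p hp, hz q hq]
    rw [add_sub_add_left_eq_sub, ← map_sub]
    congr 1
    simp only [Λ]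
    congr 1
    funext i
    simp [φ]
  have hcoord : ∀ p ∈ P, ∀ q ∈ P, ∀ i, |(φ p - φ q) i| ≤ (t : ℤ) := by
    intro p hp q hq i
    have h1 := hzr p hp i
    have h2 := hzr q hq i
    simp only [φ, Pi.sub_apply, abs_le]
    omega
  let r : (Fin d → ℤ) → Fin d → ℝ := fun a i => ⟪Λ a, L (Pi.single i 1)⟫
  have hinner : ∀ a b, ∑ i, r a i * (b i : ℝ) = ⟪Λ a, Λ b⟫ := by
    intro a b
    have e : Λ b = ∑ i, (b i : ℝ) • L (Pi.single i 1) := by
      simp only [Λ]
      rw [pi_eq_sum_univ' (fun i => (b i : ℝ)), map_sum]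
      exact sum_congr rfl fun i _ => map_smul L _ _
    rw [e, inner_sum]
    exact sum_congr rfl fun i _ => by rw [real_inner_smul_right]; ring
  have hr0 : ∀ a, r a = 0 → a = 0 := by
    intro a ha
    have h := hinner a a
    rw [ha] at h
    simp only [Pi.zero_apply, zero_mul, sum_const_zero] at h
    have h0 : Λ a = 0 := inner_self_eq_zero.1 h.symm
    have h1 : (fun i => (a i : ℝ)) = 0 := hL (by rw [map_zero]; exact h0)
    funext i
    have := congrFun h1 i
    simpa using this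
  have hrpar : ∀ (a a' : Fin d → ℤ) (μ : ℝ), (∀ i, r a' i = μ * r a i) →
      ∀ i, (a' i : ℝ) = μ * a i := by
    intro a a' μ h
    set x : Fin d → ℝ := (fun i => (a' i : ℝ)) - μ • fun i => (a i : ℝ) with hx
    have hperp : ∀ i, ⟪L x, L (Pi.single i 1)⟫ = 0 := by
      intro i
      rw [hx, map_sub, map_smul, inner_sub_left, real_inner_smul_left]
      have := h i
      simp only [r, Λ] at this
      rw [this]; ring
    have h0 : ⟪L x, L x⟫ = 0 := by
      conv_lhs => arg 2; rw [pi_eq_sum_univ' x, map_sum]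
      rw [sum_inner]
      refine sum_eq_zero fun i _ => ?_
      rw [map_smul, real_inner_smul_left, real_inner_comm, hperp i, mul_zero]
    have h1 : x = 0 := hL (by rw [map_zero]; exact inner_self_eq_zero.1 h0)
    intro i
    have := congrFun h1 i
    simp [hx] at this
    linarith
  have hN := orth_count hd (by omega : 1 ≤ 2 * t) r hr0 hrpar
  -- quadruples with equal distances
  set Z := ((box d (2 * t) ×ˢ box d (2 * t)).filter
    fun p => ∑ i, r p.1 i * p.2 i = 0) with hZ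
  set Q := (((P ×ˢ P) ×ˢ (P ×ˢ P)).filter
    fun w => dist w.1.1 w.1.2 = dist w.2.1 w.2.2) with hQ
  have hQle : Q.card ≤ (P ×ˢ P).card * Z.card := by
    rw [← card_product]
    refine card_le_card_of_injOn
      (fun w => ((w.1.1, w.2.1),
        ((φ w.1.1 - φ w.1.2) - (φ w.2.1 - φ w.2.2), (φ w.1.1 - φ w.1.2) + (φ w.2.1 - φ w.2.2))))
      ?_ ?_
    · intro w hw
      simp only [hQ, coe_filter, Set.mem_setOf_eq, mem_product] at hw
      obtain ⟨⟨⟨h1, h2⟩, h3, h4⟩, heq⟩ := hw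
      rw [hdiff _ h1 _ h2, hdiff _ h3 _ h4] at heq
      simp only [coe_product, Set.mem_prod, mem_coe, hZ, mem_filter, mem_product]
      refine ⟨⟨h1, h3⟩, ⟨mem_box.2 fun i => ?_, mem_box.2 fun i => ?_⟩, ?_⟩
      · have a1 := abs_le.1 (hcoord _ h1 _ h2 i)
        have a2 := abs_le.1 (hcoord _ h3 _ h4 i)
        rw [Pi.sub_apply, abs_le]; push_cast; omega
      · have a1 := abs_le.1 (hcoord _ h1 _ h2 i)
        have a2 := abs_le.1 (hcoord _ h3 _ h4 i)
        rw [Pi.add_apply, abs_le]; push_cast; omega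
      · rw [hinner]
        set u := φ w.1.1 - φ w.1.2
        set u' := φ w.2.1 - φ w.2.2
        have eadd : Λ (u + u') = Λ u + Λ u' := by
          simp only [Λ]; rw [← map_add]; congr 1; funext i; simp
        have esub : Λ (u - u') = Λ u - Λ u' := by
          simp only [Λ]; rw [← map_sub]; congr 1; funext i; simp
        rw [eadd, esub, real_inner_comm]
        exact (real_inner_add_sub_eq_zero_iff _ _).2 heq
    · intro w hw w' hw' h
      simp only [hQ, coe_filter, Set.mem_setOf_eq, mem_product] at hw hw'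
      simp only [Prod.mk.injEq] at h
      obtain ⟨⟨e1, e2⟩, e3, e4⟩ := h
      have hb1 : φ w.1.2 = φ w'.1.2 := by
        funext i
        have a3 := congrFun e3 i
        have a4 := congrFun e4 i
        simp only [e1, e2, Pi.sub_apply, Pi.add_apply] at a3 a4
        omega
      have hb2 : φ w.2.2 = φ w'.2.2 := by
        funext i
        have a3 := congrFun e3 i
        have a4 := congrFun e4 i
        simp only [e1, e2, Pi.sub_apply, Pi.add_apply] at a3 a4
        omega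
      exact Prod.ext (Prod.ext e1 (hφinj hw.1.1.2 hw'.1.1.2 hb1))
        (Prod.ext e2 (hφinj hw.1.2.2 hw'.1.2.2 hb2))
  rw [card_product] at hQle
  refine le_trans ?_ (mul_le_mul_of_nonneg_left hN (by positivity))
  exact_mod_cast hQle

theorem result :
    ∀ d : ℕ, 3 ≤ d → ∃ c : ℝ, 0 < c ∧
      ∀ (D t : ℕ) (L : (Fin d → ℝ) →ₗ[ℝ] EuclideanSpace ℝ (Fin D)), Function.Injective L →
      ∀ (v : EuclideanSpace ℝ (Fin D)) (P : Finset (EuclideanSpace ℝ (Fin D))) (δ : ℝ),
        2 ≤ P.card → 0 < δ → δ * (t : ℝ) ^ d ≤ P.card →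
        (∀ p ∈ P, ∃ z : Fin d → ℕ, (∀ i, 1 ≤ z i ∧ z i ≤ t) ∧
          p = v + L (fun i => (z i : ℝ))) →
        c * δ ^ 2 * (t : ℝ) ^ 2 ≤ ((P.offDiag.image fun q => dist q.1 q.2).card : ℝ) ∧
        c * δ ^ 2 * (P.card : ℝ) ^ ((2 : ℝ) / (d : ℝ))
          ≤ ((P.offDiag.image fun q => dist q.1 q.2).card : ℝ) := by
  classical
  intro d hd
  have hCpos : 0 < countConst d := by unfold countConst; positivity
  refine ⟨1 / (2 * countConst d * 2 ^ (2 * d - 2)), by positivity, ?_⟩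
  intro D t L hL v P δ hn hδ hdens hP
  choose! z hzr hz using hP
  have ht : 1 ≤ t := by
    obtain ⟨p, hp⟩ := card_pos.1 (by omega : 0 < P.card)
    have := hzr p hp ⟨0, by omega⟩
    omega
  have hES := card_le_quad P hn
  have hQ2 := quad_le hd ht L hL v P z hzr hz
  set Δ := P.offDiag.image fun q => dist q.1 q.2 with hΔ
  set n : ℝ := (P.card : ℝ) with hnR
  set C := countConst d with hC
  have hn0 : 0 < n := by rw [hnR]; exact_mod_cast (by omega : 0 < P.card)
  have ht0 : (0 : ℝ) < t := by exact_mod_cast ht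
  have hmain : n * n ≤ 2 * C * 2 ^ (2 * d - 2) * (t : ℝ) ^ (2 * d - 2) * Δ.card := by
    have h1 : (n * n) ^ 2 ≤ 2 * (Δ.card : ℝ) * (n * n * (C * ((2 * t : ℕ) : ℝ) ^ (2 * d - 2))) :=
      hES.trans (mul_le_mul_of_nonneg_left hQ2 (by positivity))
    push_cast at h1
    rw [mul_pow (2 : ℝ) (t : ℝ)] at h1
    refine le_of_mul_le_mul_left ?_ (mul_pos hn0 hn0)
    calc n * n * (n * n) = (n * n) ^ 2 := by ring
      _ ≤ _ := h1
      _ = _ := by ring
  have hfirst : 1 / (2 * C * 2 ^ (2 * d - 2)) * δ ^ 2 * (t : ℝ) ^ 2 ≤ (Δ.card : ℝ) := by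
    rw [one_div, mul_assoc, inv_mul_le_iff₀ (by positivity)]
    refine le_of_mul_le_mul_right ?_ (pow_pos ht0 (2 * d - 2))
    calc δ ^ 2 * (t : ℝ) ^ 2 * (t : ℝ) ^ (2 * d - 2) = (δ * (t : ℝ) ^ d) * (δ * (t : ℝ) ^ d) := by
          rw [mul_assoc, ← pow_add, show 2 + (2 * d - 2) = d + d by omega, pow_add]; ring
      _ ≤ n * n := mul_le_mul hdens hdens (by positivity) hn0.le
      _ ≤ _ := hmain
      _ = _ := by ring
  refine ⟨hfirst, le_trans (mul_le_mul_of_nonneg_left ?_ (by positivity)) hfirst⟩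
  have hle : P.card ≤ t ^ d := by
    let φ : EuclideanSpace ℝ (Fin D) → (Fin d → ℤ) := fun p i => (z p i : ℤ)
    have hφinj : Set.InjOn φ ↑P := by
      intro p hp q hq h
      rw [hz p hp, hz q hq]
      congr 2
      funext i
      have := congrFun h i
      simp only [φ] at this
      exact_mod_cast this
    have h : (P.image φ).card ≤ (Fintype.piFinset fun _ : Fin d => Finset.Icc (1 : ℤ) t).card := by
      refine card_le_card fun a ha => ?_
      obtain ⟨p, hp, rfl⟩ := mem_image.1 ha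
      refine Fintype.mem_piFinset.2 fun i => mem_Icc.2 ?_
      have := hzr p hp i
      simp only [φ]
      omega
    rw [card_image_of_injOn hφinj] at h
    simpa using h
  have hle' : n ≤ (t : ℝ) ^ d := by rw [hnR]; exact_mod_cast hle
  calc n ^ ((2 : ℝ) / d) ≤ ((t : ℝ) ^ d) ^ ((2 : ℝ) / d) :=
        Real.rpow_le_rpow hn0.le hle' (by positivity)
    _ = (t : ℝ) ^ 2 := by
        rw [← Real.rpow_natCast (t : ℝ) d, ← Real.rpow_mul ht0.le,
          mul_div_cancel₀ _ (by positivity : (d : ℝ) ≠ 0)]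
        norm_num

end Vale.Agent.Results.P054.LatticeBoxes
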