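import Vale.Agent.P054.Squeeze

/-!
# P054: signed sums of squared distances, and small doubling distance sets
-/

namespace Vale.Agent.Results.P054.SignedDistanceSums

open Finset Module Vale.Agent.P054.Squeeze
open scoped RealInnerProductSpace Pointwise

theorem result : ∀ d : ℕ, 1 ≤ d → ∃ c : ℝ, 0 < c ∧
    ∀ P : Finset (EuclideanSpace ℝ (Fin d)), 2 ≤ P.card →
      (c * (P.card : ℝ) ^ ((2 : ℝ) / d) ≤
        ((((2 : ℕ) • (P ×ˢ P).image fun q => dist q.1 q.2 ^ 2)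
          - ((2 : ℕ) • (P ×ˢ P).image fun q => dist q.1 q.2 ^ 2)).card : ℝ)) ∧
      ∀ K : ℝ,
        (((((P ×ˢ P).image fun q => dist q.1 q.2 ^ 2)
            + ((P ×ˢ P).image fun q => dist q.1 q.2 ^ 2)).card : ℝ)
          ≤ K * (((P ×ˢ P).image fun q => dist q.1 q.2 ^ 2).card : ℝ) ∨
        ((((P ×ˢ P).image fun q => dist q.1 q.2 ^ 2)
            - ((P ×ˢ P).image fun q => dist q.1 q.2 ^ 2)).card : ℝ)
          ≤ K * (((P ×ˢ P).image fun q => dist q.1 q.2 ^ 2).card : ℝ)) →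
        c * (P.card : ℝ) ^ ((2 : ℝ) / d)
          ≤ K ^ 4 * ((P.offDiag.image fun q => dist q.1 q.2).card : ℝ) := by
  classical
  intro d hd
  obtain ⟨G, hG, hcore⟩ := core (E := EuclideanSpace ℝ (Fin d)) d
  refine ⟨1 / (8 * G), by positivity, fun P hn => ?_⟩
  set S := sq P with hS
  change (_ ≤ (((2 : ℕ) • S - (2 : ℕ) • S).card : ℝ)) ∧
    ∀ K : ℝ, (((S + S).card : ℝ) ≤ K * (S.card : ℝ) ∨ ((S - S).card : ℝ) ≤ K * (S.card : ℝ)) → _
  have hd0 : (0 : ℝ) < d := by exact_mod_cast hd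
  set x : ℝ := (P.card : ℝ) ^ ((1 : ℝ) / d) with hx
  have hx1 : 1 ≤ x := Real.one_le_rpow (by exact_mod_cast (by omega : 1 ≤ P.card)) (by positivity)
  set t := ⌊x⌋₊ with ht
  have htd : t ^ d ≤ P.card := by
    have h1 : (t : ℝ) ^ d ≤ x ^ d := pow_le_pow_left₀ (by positivity) (Nat.floor_le (by positivity)) d
    have h2 : x ^ d = (P.card : ℝ) := by
      rw [hx, one_div, Real.rpow_inv_natCast_pow (by positivity) (by omega)]
    exact_mod_cast h1.trans_eq h2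
  have hdim : finrank ℝ (vectorSpan ℝ (↑P : Set (EuclideanSpace ℝ (Fin d)))) ≤ d :=
    (Submodule.finrank_le _).trans_eq (by simp)
  have h := hcore P hn hdim t htd
  have hhalf : x ≤ 2 * t := by
    have h1 := Nat.lt_floor_add_one x
    have h2 : (1 : ℝ) ≤ (t : ℝ) := by exact_mod_cast Nat.le_floor (by simpa using hx1)
    linarith
  have hrp : (P.card : ℝ) ^ ((2 : ℝ) / d) = x ^ 2 := by
    rw [hx, ← Real.rpow_natCast ((P.card : ℝ) ^ ((1 : ℝ) / d)) 2, ← Real.rpow_mul (by positivity)]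
    congr 1
    push_cast
    ring
  have hmain : 1 / (4 * (G : ℝ)) * (P.card : ℝ) ^ ((2 : ℝ) / d)
      ≤ (((2 : ℕ) • S - (2 : ℕ) • S).card : ℝ) := by
    have h' : (t : ℝ) ^ 2 ≤ G * (((2 : ℕ) • S - (2 : ℕ) • S).card : ℝ) := by exact_mod_cast h
    rw [hrp, div_mul_eq_mul_div, one_mul, div_le_iff₀ (by positivity)]
    nlinarith
  have hc : (1 : ℝ) / (8 * G) * (P.card : ℝ) ^ ((2 : ℝ) / d)
      ≤ 1 / (4 * (G : ℝ)) * (P.card : ℝ) ^ ((2 : ℝ) / d) := by
    gcongr; norm_num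
  refine ⟨hc.trans hmain, fun K hK => ?_⟩
  set Δ := P.offDiag.image fun q => dist q.1 q.2 with hΔ
  obtain ⟨a, ha, b, hb, hab⟩ := one_lt_card.1 (show 1 < P.card by omega)
  have hΔ1 : 1 ≤ Δ.card := card_pos.2 ⟨_, mem_image.2 ⟨(a, b), mem_offDiag.2 ⟨ha, hb, hab⟩, rfl⟩⟩
  have hSne : S.Nonempty := ⟨_, mem_image.2 ⟨(a, b), mem_product.2 ⟨ha, hb⟩, rfl⟩⟩
  have hSΔ : (S.card : ℝ) ≤ 2 * (Δ.card : ℝ) := by
    have : S ⊆ insert 0 (Δ.image fun r => r ^ 2) := by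
      intro y hy
      obtain ⟨q, hq, rfl⟩ := mem_image.1 hy
      rw [mem_product] at hq
      by_cases he : q.1 = q.2
      · simp [he]
      · exact mem_insert_of_mem (mem_image_of_mem _ (mem_image.2 ⟨q, mem_offDiag.2 ⟨hq.1, hq.2, he⟩, rfl⟩))
    have h1 := (card_le_card this).trans (card_insert_le _ _)
    have h2 := card_image_le (s := Δ) (f := fun r : ℝ => r ^ 2)
    exact_mod_cast (by omega : S.card ≤ 2 * Δ.card)
  have hS0 : (0 : ℝ) < S.card := by exact_mod_cast hSne.card_pos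
  obtain ⟨r, hr, hrK, hprR⟩ : ∃ r : ℝ, 0 ≤ r ∧ r ≤ K ∧
      (((2 : ℕ) • S - (2 : ℕ) • S).card : ℝ) ≤ r ^ (2 + 2) * S.card := by
    rcases hK with hK | hK
    · refine ⟨((S + S).card : ℝ) / S.card, by positivity, by rw [div_le_iff₀ hS0]; exact hK, ?_⟩
      have h2 := NNRat.cast_mono (K := ℝ) (pluennecke_ruzsa_inequality_nsmul_sub_nsmul_add hSne S 2 2)
      push_cast at h2
      exact h2
    · refine ⟨((S - S).card : ℝ) / S.card, by positivity, by rw [div_le_iff₀ hS0]; exact hK, ?_⟩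
      have h2 := NNRat.cast_mono (K := ℝ) (pluennecke_ruzsa_inequality_nsmul_sub_nsmul_sub hSne S 2 2)
      push_cast at h2
      exact h2
  have hfin : (((2 : ℕ) • S - (2 : ℕ) • S).card : ℝ) ≤ K ^ 4 * (2 * Δ.card) := by
    refine hprR.trans ?_
    refine mul_le_mul ?_ hSΔ hS0.le (by positivity)
    exact pow_le_pow_left₀ hr hrK 4
  have := hmain.trans hfin
  calc 1 / (8 * (G : ℝ)) * (P.card : ℝ) ^ ((2 : ℝ) / d)
      = (1 / (4 * (G : ℝ)) * (P.card : ℝ) ^ ((2 : ℝ) / d)) / 2 := by ring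
    _ ≤ _ := by linarith

end Vale.Agent.Results.P054.SignedDistanceSums
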